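import Vale.Agent.P195.Final
import Mathlib.Algebra.Category.ModuleCat.Ext.HasExt
import Mathlib.RingTheory.Finiteness.Basic
import Mathlib.Data.Complex.Basic

/-! P195: a counterexample to the Auslander-Reiten conjecture. -/

open CategoryTheory

theorem Vale.Agent.Results.P195.AuslanderReitenFalse.result :
    ∃ (A : Type) (_ : Ring A) (_ : Algebra ℂ A), Module.Finite ℂ A ∧
      ∃ M : ModuleCat.{0} A, Module.Finite A M ∧ ¬ Module.Projective A M ∧
        ∀ n : ℕ, 1 ≤ n → Subsingleton (Abelian.Ext M M n) ∧
          Subsingleton (Abelian.Ext M (ModuleCat.of A A) n) :=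
  Vale.Agent.P195.Model.exists_counterexample
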