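import Vale.Agent.P195.Base

/-!
P195: closure of the Auslander-Reiten property under two constructions, and an unconditional
class of rings that has it.
-/

universe u

open CategoryTheory in
theorem Vale.Agent.Results.P195.ClosureAndClass.result :
    (∀ (R : Type u) (iR : Ring R),
      Vale.Agent.P195.Built R iR → @Vale.Agent.P195.ARProperty R iR) ∧
    (∀ (A B : Type u) [Ring A] [Ring B] (ι : A →+* B) (x : B) (n : ℕ),
      (∀ b : B, x * b = b * x) → x ^ n = 0 →
      Function.Bijective (fun c : Fin n → A => ∑ j, ι (c j) * x ^ (j : ℕ)) →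
      Vale.Agent.P195.ARProperty A → Vale.Agent.P195.ARProperty B) ∧
    (∀ (A : Type u) [Ring A] (p : ℕ), p.Prime → (p : A) = 0 →
      ∀ (P : Type) [Group P] [Finite P], IsPGroup p P →
        Vale.Agent.P195.ARProperty A →
        Vale.Agent.P195.ARProperty (MonoidAlgebra A P)) := by
  refine ⟨Vale.Agent.P195.ar_of_built,
    fun _ _ _ _ _ _ _ hc hn hb hA => Vale.Agent.P195.Trunc.ar_trunc ⟨hc, hn, hb⟩ hA, ?_⟩
  intro A _ p hp hpA P _ _ hP hA
  have : Fact p.Prime := ⟨hp⟩
  exact Vale.Agent.P195.ar_ascends hpA hP hA
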